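import Vale.Agent.P354KT.Kerr
import Vale.Agent.P354J.Fr
import Vale.Agent.P354IK.Kpd

/-!
The witness for the Kerr slice: a divergence free tensor with support near the equator on which
the second fundamental form has a sign.
-/

open scoped ContDiff
open Set Filter Topology

noncomputable section

namespace Vale.Agent.P354KT

open Vale.Agent.P354H (X3 e pd)
open Vale.Agent.P354K
open Vale.Agent.P354J (PD MS)
open Vale.Agent.P354R (Del)
open Vale.Agent.P354I (rm rp)
open Vale.Agent.P354D (sgn)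

/-! ### The momentum density -/

theorem pi_sm {h K : X3 → M3} (H : PD h K) (a b : Fin 3) :
    Sm fun z => piOf (h z) (K z) a b := by
  have hd : Sm fun z => (h z).det :=
    contDiffOn_univ.1 (P354J.det_smoothOn fun i j => (H.sh i j).contDiffOn)
  have hi : ∀ i j, Sm fun z => (h z)⁻¹ i j := fun i j => contDiffOn_univ.1
    (P354J.inv_smoothOn (fun i j => (H.sh i j).contDiffOn)
      (fun y _ => (H.pos y).1.det_pos.ne') i j)
  exact (hd.sqrt fun y => (H.pos y).1.det_pos.ne').mul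
    ((ContDiff.sum fun c _ => ContDiff.sum fun d _ => ((hi a c).mul (hi b d)).mul (H.sK c d)).sub
      ((hi a b).mul (ContDiff.sum fun c _ => ContDiff.sum fun d _ => (hi c d).mul (H.sK c d))))

theorem jet_jet {h π : X3 → M3} (hh : MS h) (hπ : MS π) (sh : ∀ z a b, h z a b = h z b a)
    (sπ : ∀ z a b, π z a b = π z b a) : Jet pd (jet h π) where
  sm x := by
    cases x with
    | h a b => exact hh a b
    | dh i a b => exact P354H.pd_sm i (hh a b)
    | ddh i k a b => exact P354H.pd_sm i (P354H.pd_sm k (hh a b))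
    | p a b => exact hπ a b
    | dp i a b => exact P354H.pd_sm i (hπ a b)
  hs a b := funext fun z => sh z a b
  ps a b := funext fun z => sπ z a b
  dh _ _ _ := rfl
  ddh _ _ _ _ := rfl
  dp _ _ _ := rfl

/-! ### The profile -/

/-- The function exp (-1 / t) / t. -/
def E1 (t : ℝ) : ℝ := t⁻¹ * expNegInvGlue t

theorem E1_sm : ContDiff ℝ ∞ E1 := by
  have := expNegInvGlue.contDiff_polynomial_eval_inv_mul (n := ⊤) Polynomial.X
  simp only [Polynomial.eval_X] at this
  exact this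

theorem E_eq (t : ℝ) : expNegInvGlue t = t * E1 t := by
  rcases eq_or_ne t 0 with rfl | h
  · simp
  · rw [E1, mul_inv_cancel_left₀ h]

theorem E_der (t : ℝ) : HasDerivAt expNegInvGlue (t⁻¹ * E1 t) t := by
  have := expNegInvGlue.hasDerivAt_polynomial_eval_inv_mul 1 t
  simp only [Polynomial.eval_one, one_mul, Polynomial.derivative_one, sub_zero, mul_one,
    Polynomial.eval_pow, Polynomial.eval_X] at this
  refine this.congr_deriv ?_
  rw [E1]
  ring

theorem E1_zero {t : ℝ} (h : t ≤ 0) : E1 t = 0 := by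
  rw [E1, expNegInvGlue.zero_of_nonpos h, mul_zero]

theorem E1_pos {t : ℝ} (h : 0 < t) : 0 < E1 t :=
  mul_pos (inv_pos.2 h) (expNegInvGlue.pos_of_pos h)

theorem EE (t : ℝ) : t⁻¹ * E1 t * expNegInvGlue t = E1 t * E1 t := by
  rw [E1]
  ring

/-- The derivatives of the square of the length of the rotation field with respect to the square
of the sine and to r, and the factor which has to be positive. -/
def gs (M a r x : ℝ) : ℝ :=
  Sx a r x + a ^ 2 * x + 4 * M * r * a ^ 2 * x * (Sx a r x)⁻¹ +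
    2 * M * r * a ^ 4 * (x * x) * ((Sx a r x)⁻¹ * (Sx a r x)⁻¹)
def gr (M a r x : ℝ) : ℝ :=
  2 * r * x + 2 * M * a ^ 2 * (x * x) * (Sx a r x - 2 * r ^ 2) * ((Sx a r x)⁻¹ * (Sx a r x)⁻¹)
def nu (a r x t : ℝ) : ℝ := 4 * x * Sx a r x + (3 * Sx a r x - a ^ 2 * x) * (t * t)
def Ps (M a r x t : ℝ) : ℝ := nu a r x t * -gr M a r x * (gs M a r x)⁻¹ - 2 * r * x * (t * t)

variable {M a r : ℝ}

theorem gs_pos (hM : 0 < M) (h : 0 < r) {x : ℝ} (h0 : 0 ≤ x) (h1 : x ≤ 1) : 0 < gs M a r x := by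
  have := Sx_pos a h h1
  unfold gs
  positivity

theorem Ps_pos (hM : 0 < M) (h : 0 < r) (h3 : r ^ 3 < M * a ^ 2) :
    ∃ δ > 0, δ ≤ 1 / 2 ∧ ∀ x ∈ Icc (1 - δ) 1, 0 < Ps M a r x (x - (1 - δ)) := by
  have hS : Sx a r 1 ≠ 0 := (Sx_pos a h le_rfl).ne'
  have hg := gs_pos (a := a) hM h zero_le_one le_rfl
  have cS : ContinuousAt (fun p : ℝ × ℝ => Sx a r p.1) (1, 0) := by unfold Sx; fun_prop
  have cI := cS.inv₀ hS
  have cg : ContinuousAt (fun p : ℝ × ℝ => gs M a r p.1) (1, 0) :=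
    ((cS.add (continuousAt_const.mul continuousAt_fst)).add
      ((continuousAt_const.mul continuousAt_fst).mul cI)).add
      ((continuousAt_const.mul (continuousAt_fst.mul continuousAt_fst)).mul (cI.mul cI))
  have cr : ContinuousAt (fun p : ℝ × ℝ => gr M a r p.1) (1, 0) :=
    (continuousAt_const.mul continuousAt_fst).add
      (((continuousAt_const.mul (continuousAt_fst.mul continuousAt_fst)).mul
        (cS.sub continuousAt_const)).mul (cI.mul cI))
  have cn : ContinuousAt (fun p : ℝ × ℝ => nu a r p.1 p.2) (1, 0) :=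
    ((continuousAt_const.mul continuousAt_fst).mul cS).add
      (((continuousAt_const.mul cS).sub (continuousAt_const.mul continuousAt_fst)).mul
        (continuousAt_snd.mul continuousAt_snd))
  have cP : ContinuousAt (fun p : ℝ × ℝ => Ps M a r p.1 p.2) (1, 0) :=
    ((cn.mul cr.neg).mul (cg.inv₀ hg.ne')).sub
      ((continuousAt_const.mul continuousAt_fst).mul (continuousAt_snd.mul continuousAt_snd))
  have p0 : 0 < Ps M a r 1 0 := by
    have e1 : Sx a r 1 = r ^ 2 := by simp [Sx]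
    have e2 : -gr M a r 1 = 2 * (M * a ^ 2 - r ^ 3) / r ^ 2 := by
      rw [gr, e1]; field_simp; ring
    have : 0 < M * a ^ 2 - r ^ 3 := by linarith
    rw [Ps, nu, e1, e2]
    simp only [mul_zero, add_zero, sub_zero]
    positivity
  obtain ⟨ε, hε, H⟩ := Metric.eventually_nhds_iff.1 (cP.eventually (lt_mem_nhds p0))
  refine ⟨min (ε / 2) (1 / 2), by positivity, min_le_right _ _, fun x hx => ?_⟩
  have := min_le_left (ε / 2) (1 / 2)
  refine H (y := (x, x - (1 - min (ε / 2) (1 / 2)))) ?_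
  rw [Prod.dist_eq, Real.dist_eq, Real.dist_eq, max_lt_iff, abs_lt, abs_lt]
  have h1 := hx.1
  have h2 := hx.2
  exact ⟨⟨by dsimp only; linarith, by dsimp only; linarith⟩,
    ⟨by dsimp only; linarith, by dsimp only; linarith⟩⟩

/-- The coefficients of the tensor, and the profile in x. -/
def tt (δ : ℝ) (z : X3) : ℝ := sg z - (1 - δ)
def AA (M a r δ : ℝ) (z : X3) : ℝ :=
  -(mm z * (E1 (tt δ z) * E1 (tt δ z)) * nu a r (sg z) (tt δ z) * (gs M a r (sg z))⁻¹)
def BB (δ : ℝ) (z : X3) : ℝ := -(mm z * (expNegInvGlue (tt δ z) * expNegInvGlue (tt δ z)))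
def ff (b : Bool) (x : ℝ) : ℝ := expNegInvGlue (1 / 4 - (x - 2 * sgn b) ^ 2)

theorem ff_sm (b : Bool) : ContDiff ℝ ∞ (ff b) :=
  expNegInvGlue.contDiff.comp (contDiff_const.sub ((contDiff_id.sub contDiff_const).pow 2))

theorem rd_tt (δ : ℝ) : Rd (tt δ) sg' :=
  (rd_sg.sub (Rd.const (1 - δ))).cg (fun _ => rfl) fun _ => by ring

theorem ra_gs (h : 0 < r) : Ra fun z => gs M a r (sg z) := by
  have s : Ra sg := ⟨_, rd_sg⟩
  have S : Ra _ := ⟨_, rd_Sx a r⟩
  have I : Ra _ := ⟨_, rd_Si a h⟩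
  exact ((S.add ((Ra.const _).mul s)).add (((Ra.const _).mul s).mul I)).add
    (((Ra.const _).mul (s.mul s)).mul (I.mul I))

theorem ra_nu (δ : ℝ) : Ra fun z => nu a r (sg z) (tt δ z) := by
  have s : Ra sg := ⟨_, rd_sg⟩
  have S : Ra _ := ⟨_, rd_Sx a r⟩
  have t : Ra _ := ⟨_, rd_tt δ⟩
  exact (((Ra.const _).mul s).mul S).add
    ((((Ra.const _).mul S).sub ((Ra.const _).mul s)).mul (t.mul t))

theorem ra_Ps (hM : 0 < M) (h : 0 < r) (δ : ℝ) : Ra fun z => Ps M a r (sg z) (tt δ z) := by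
  have s : Ra sg := ⟨_, rd_sg⟩
  have S : Ra _ := ⟨_, rd_Sx a r⟩
  have I : Ra _ := ⟨_, rd_Si a h⟩
  have t : Ra _ := ⟨_, rd_tt δ⟩
  have g : Ra fun z => gr M a r (sg z) := ((Ra.const _).mul s).add
    ((((Ra.const _).mul (s.mul s)).mul (S.sub (Ra.const _))).mul (I.mul I))
  exact (((ra_nu δ).mul g.neg).mul ((ra_gs h).inv
    fun z => (gs_pos hM h (sg_nn z) (sg_le z)).ne')).sub (((Ra.const _).mul s).mul (t.mul t))

theorem ra_AA (hM : 0 < M) (h : 0 < r) (δ : ℝ) : Ra (AA M a r δ) := by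
  have m : Ra mm := ⟨_, rd_mm⟩
  have t : Ra _ := Ra.comp E1_sm ⟨_, rd_tt δ⟩
  exact (((m.mul (t.mul t)).mul (ra_nu δ)).mul ((ra_gs h).inv
    fun z => (gs_pos hM h (sg_nn z) (sg_le z)).ne')).neg

theorem rd_BB (δ : ℝ) : Rd (BB δ) fun z =>
    -(mm' z * (tt δ z * tt δ z) + 2 * mm z * sg' z) * (E1 (tt δ z) * E1 (tt δ z)) := by
  have t := (rd_tt δ).comp expNegInvGlue.contDiff E_der
  refine (rd_mm.mul (t.mul t)).neg.cg (fun _ => rfl) fun z => ?_
  have h1 := EE (tt δ z)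
  have h2 := E_eq (tt δ z)
  linear_combination (2 * mm z * sg' z) * h1 +
    mm' z * (expNegInvGlue (tt δ z) + tt δ z * E1 (tt δ z)) * h2

theorem BB_eq (δ : ℝ) (z : X3) :
    BB δ z = -(mm z * (tt δ z * tt δ z) * (E1 (tt δ z) * E1 (tt δ z))) := by
  rw [BB, E_eq]
  ring

theorem div_kerr (hM : 0 < M) (h : 0 < r) (σ b : Bool) (δ : ℝ) (π : X3 → M3) (z : X3) (i : Fin 3) :
    PM i (at' (jet (hS M a r σ) π) z)
      (at' (jet 0 (TA (fun z => ff b z.1 * ff b z.1) (AA M a r δ) (BB δ))) z) = 0 := by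
  obtain ⟨_, h0⟩ := ra0 M a h
  obtain ⟨_, h1⟩ := ra1 M a h
  obtain ⟨_, hA⟩ := ra_AA (a := a) hM h δ
  have hf := gr_x.comp (ff_sm b) fun x => ((ff_sm b).differentiable (by simp) x).hasDerivAt
  have hF : Gr (fun z => ff b z.1 * ff b z.1)
      fun z => ![2 * deriv (ff b) z.1 * ff b z.1, 0, 0] :=
    (hf.mul hf).cg (fun _ => rfl) fun z j => by
      fin_cases j
      · simp
        ring
      · simp
      · simp
  rw [hS_eq M a h]
  refine div_zero π h0 h1 (rd2 a r) (rd3 M a h) hF hA (rd_BB δ) z ?_ i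
  have hg := (gs_pos (a := a) hM h (sg_nn z) (sg_le z)).ne'
  have hS := (Sx_pos a h (sg_le z)).ne'
  have g1 : 2 * c2 a r z + ss z * (4 * (mm' z * Sx a r (sg z) - mm z * (a ^ 2 * sg' z))) +
      4 * ss z * c3 M a r z + ss z ^ 2 * (16 * a ^ 2 * (2 * mm z * mm' z *
        (1 + 2 * M * r * (Sx a r (sg z))⁻¹) + mm z * mm z *
      (2 * M * r * (a ^ 2 * sg' z * ((Sx a r (sg z))⁻¹ * (Sx a r (sg z))⁻¹))))) =
      gs M a r (sg z) * sg' z := by
    simp only [c2, c3, gs]
    generalize Sx a r (sg z) = S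
    simp only [sg, sg']
    ring
  rw [g1, AA, BB_eq]
  have g2 := inv_mul_cancel₀ hg
  simp only [c2, nu]
  generalize Sx a r (sg z) = S
  generalize gs M a r (sg z) = G at g2
  generalize tt δ z = t
  simp only [sg, sg']
  linear_combination (-(mm z * (E1 t * E1 t) * (4 * (4 * ss z * mm z) * S +
    (3 * S - a ^ 2 * (4 * ss z * mm z)) * (t * t)) * (8 * mm z + 4 * ss z * mm' z))) * g2

theorem TK_kerr (h : 0 < r) (σ : Bool) (δ : ℝ) (F : X3 → ℝ) (z : X3) :
    ∑ i, ∑ j, TA F (AA M a r δ) (BB δ) z i j * kS M a r σ z i j =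
      -(F z * (E1 (tt δ z) * E1 (tt δ z)) * (nn M a r z / 2 * mm z * Ps M a r (sg z) (tt δ z))) := by
  have hS := (Sx_pos a h (sg_le z)).ne'
  have g1 : ss z * d2 r z + ss z ^ 2 * d3 M a r z = gr M a r (sg z) := by
    simp only [d2, d3, gr]
    generalize Sx a r (sg z) = S at hS
    simp only [sg]
    field_simp
    ring
  have g2 : ss z * d2 r z = 2 * r * sg z := by simp only [d2, sg]; ring
  rw [TK M a h, g1, g2, AA, BB_eq, Ps]
  ring

theorem par_swap (G T π : M3) : qf G T π = ∑ a, ∑ b, T a b * par G π a b := rfl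

/-- The support. -/
def KK (b : Bool) : Set X3 := Metric.closedBall 0 3 ∩ {z | 3 / 2 ≤ sgn b * z.1}

theorem KK_closed (b : Bool) : IsClosed (KK b) :=
  Metric.isClosed_closedBall.inter (isClosed_le continuous_const (by fun_prop))

theorem out {δ : ℝ} (hδ : δ ≤ 1 / 2) (b : Bool) {z : X3} (hz : z ∉ KK b) :
    ff b z.1 = 0 ∨ tt δ z ≤ 0 := by
  by_contra hc
  obtain ⟨h1, h2⟩ := not_or.1 hc
  have h3 : (z.1 - 2 * sgn b) ^ 2 < 1 / 4 := by
    by_contra h
    exact h1 (expNegInvGlue.zero_of_nonpos (by linarith [not_lt.1 h]))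
  have h4 : 1 / 2 < sg z := by
    have := not_le.1 h2
    rw [tt] at this
    linarith
  have hq := q_pos z
  rw [sg, mm, ← div_eq_mul_inv, lt_div_iff₀ (by positivity)] at h4
  have h5 : ss z < 9 := by nlinarith [ss_nn z]
  have h6 := abs_lt.1 (abs_lt_of_sq_lt_sq (show (z.1 - 2 * sgn b) ^ 2 < (1 / 2) ^ 2 by linarith)
    (by norm_num))
  rw [ss] at h5
  refine hz ⟨?_, ?_⟩
  · rw [mem_closedBall_zero_iff, Prod.norm_def, Prod.norm_def, max_le_iff, max_le_iff,
      Real.norm_eq_abs, Real.norm_eq_abs, Real.norm_eq_abs]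
    refine ⟨abs_le.2 ?_, abs_le_of_sq_le_sq' (by nlinarith) (by norm_num) |> abs_le.2,
      abs_le_of_sq_le_sq' (by nlinarith) (by norm_num) |> abs_le.2⟩
    cases b <;> simp only [sgn, cond] at h6 <;> constructor <;> linarith [h6.1, h6.2]
  · show 3 / 2 ≤ sgn b * z.1
    cases b <;> simp only [sgn, cond] at h6 ⊢ <;> linarith [h6.1, h6.2]

theorem wit_at (A0 : ALG0) (hM : 0 < M) (h : 0 < r) (hD : Del M a r < 0) (h3 : r ^ 3 < M * a ^ 2)
    (σ b : Bool) (H : PD (hS M a r σ) (kS M a r σ)) :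
    ∃ (T : X3 → M3) (χ : X3 → ℝ), Wit pd (KK b)
      (jet (hS M a r σ) fun z => piOf (hS M a r σ z) (kS M a r σ z)) (jet 0 T) χ := by
  obtain ⟨δ, δ0, δ1, hP⟩ := Ps_pos hM h h3
  have hf : Sm fun z => ff b z.1 := (ff_sm b).comp contDiff_fst
  have hE : Sm fun z => E1 (tt δ z) := E1_sm.comp (Gr.sm (rd_tt δ))
  have hd : Sm fun z => (hS M a r σ z).det :=
    contDiffOn_univ.1 (P354J.det_smoothOn fun i j => (H.sh i j).contDiffOn)
  have dp : ∀ z, 0 < (hS M a r σ z).det := fun z => (H.pos z).1.det_pos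
  have np : ∀ z, 0 < -(Del M a r / Sx a r (sg z)) := fun z =>
    neg_pos.2 (div_neg_of_neg_of_pos hD (Sx_pos a h (sg_le z)))
  have hn : Sm (nn M a r) := (contDiff_const.div (Gr.sm (rd_Sx a r))
    fun z => (Sx_pos a h (sg_le z)).ne').neg.sqrt fun z => (np z).ne'
  set w : X3 → ℝ := fun z =>
    √(hS M a r σ z).det * (nn M a r z / 2 * mm z * Ps M a r (sg z) (tt δ z)) with hw
  have ws : Sm w := (hd.sqrt fun z => (dp z).ne').mul
    (((hn.div_const 2).mul (Gr.sm rd_mm)).mul (ra_Ps hM h δ).sm)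
  have wp : ∀ z, 0 ≤ tt δ z → 0 < w z := fun z hz =>
    mul_pos (Real.sqrt_pos.2 (dp z)) (mul_pos (mul_pos (half_pos (Real.sqrt_pos.2 (np z)))
      (mm_pos z)) (hP _ ⟨by rw [tt] at hz; linarith, sg_le z⟩))
  have hT := TA_sm (hf.mul hf) (ra_AA (a := a) hM h δ).sm (Gr.sm (rd_BB δ))
  have T0 : ∀ i j z, z ∉ KK b →
      TA (fun z => ff b z.1 * ff b z.1) (AA M a r δ) (BB δ) z i j = 0 := by
    intro i j z hz
    rcases out δ1 b hz with h1 | h1
    · fin_cases i <;> fin_cases j <;> simp [TA, h1]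
    · have e1 : AA M a r δ z = 0 := by simp [AA, E1_zero h1]
      have e2 : BB δ z = 0 := by simp [BB_eq, E1_zero h1]
      fin_cases i <;> fin_cases j <;> simp [TA, e1, e2]
  have z0 : ∀ i j, (fun y : X3 => (0 : X3 → M3) y i j) = fun _ => 0 := fun _ _ => rfl
  refine ⟨TA (fun z => ff b z.1 * ff b z.1) (AA M a r δ) (BB δ),
    fun z => ff b z.1 * E1 (tt δ z) * √(w z), ?_, ?_, fun i z => ?_, fun z => (dp z).ne',
    fun _ _ _ => rfl, fun z hz => ⟨?_, fun x => ?_⟩, ?_, ⟨(2 * sgn b, 1, 0), ?_⟩,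
    fun i z => div_kerr hM h σ b δ _ z i, fun z => ?_⟩
  · exact jet_jet H.sh (pi_sm H) (fun z i j => ((H.pos z).1.1.apply j i))
      fun z i j => ((A0.2.1 _ _ (H.pos z).1 (H.pos z).2).1.apply j i)
  · exact jet_jet (fun _ _ => contDiff_const) hT (fun _ _ _ => rfl) (TA_symm _ _ _)
  · exact (H.pos z).1.diag_pos
  · rcases out δ1 b hz with h1 | h1
    · simp [h1]
    · simp [E1_zero h1]
  · cases x with
    | h i j => rfl
    | dh k i j => simp only [jet, z0, pd_const]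
    | ddh k l i j => simp only [jet, z0, pd_const]
    | p i j => exact T0 i j z hz
    | dp k i j => exact pd_supp k (KK_closed b) (T0 i j) z hz
  · refine contDiff_iff_contDiffAt.2 fun z => ?_
    rcases le_or_gt 0 (tt δ z) with h1 | h1
    · exact (hf.mul hE).contDiffAt.mul (ws.contDiffAt.sqrt (wp z h1).ne')
    · refine (contDiffAt_const (c := (0 : ℝ))).congr_of_eventuallyEq ?_
      filter_upwards [(Gr.sm (rd_tt δ)).continuous.continuousAt.eventually (gt_mem_nhds h1)]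
        with y hy
      simp [E1_zero hy.le]
  · have h1 : 0 < tt δ (2 * sgn b, 1, 0) := by
      simp only [tt, sg, mm, ss]
      norm_num
      exact δ0
    have h2 : 0 < ff b (2 * sgn b) := expNegInvGlue.pos_of_pos (by norm_num)
    exact (mul_pos (mul_pos h2 (E1_pos h1)) (Real.sqrt_pos.2 (wp _ h1.le))).ne'
  · have k1 : ∀ i j, par (hS M a r σ z) (piOf (hS M a r σ z) (kS M a r σ z)) i j =
        √(hS M a r σ z).det * kS M a r σ z i j := fun i j => by
      have := congrFun (congrFun (A0.2.1 _ _ (H.pos z).1 (H.pos z).2).2 i) j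
      rw [kOf, Matrix.of_apply, div_eq_iff (Real.sqrt_pos.2 (dp z)).ne'] at this
      rw [this, mul_comm]
    have k2 := TK_kerr (M := M) (a := a) h σ δ (fun z => ff b z.1 * ff b z.1) z
    show qf (hS M a r σ z) (TA (fun z => ff b z.1 * ff b z.1) (AA M a r δ) (BB δ) z)
      (piOf (hS M a r σ z) (kS M a r σ z)) = _
    rw [par_swap]
    simp only [k1, mul_left_comm _ √(hS M a r σ z).det, ← Finset.mul_sum, k2]
    rcases le_or_gt 0 (tt δ z) with h1 | h1
    · rw [mul_pow, Real.sq_sqrt (wp z h1).le, hw]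
      ring
    · simp [E1_zero h1.le]

/-- **WIT.** -/
theorem wit (A0 : ALG0) : WIT := by
  intro M a ha hM
  have M0 : 0 < M := (abs_nonneg a).trans_lt hM
  have h0 := P354IK.rm_pos ha hM
  have hs : 0 < M ^ 2 - a ^ 2 := by
    rw [← sq_abs a]
    exact sub_pos.2 (pow_lt_pow_left₀ hM (abs_nonneg a) two_ne_zero)
  have hq := Real.sqrt_pos.2 hs
  have hq2 := Real.sq_sqrt hs.le
  have h3 : rm M a ^ 3 < M * a ^ 2 := by
    have e1 : a ^ 2 = rm M a * (M + √(M ^ 2 - a ^ 2)) := by rw [rm]; linear_combination hq2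
    have e2 : rm M a < M := by rw [rm]; linarith
    have e3 : rm M a ^ 2 < M * (M + √(M ^ 2 - a ^ 2)) := by nlinarith
    calc rm M a ^ 3 = rm M a * rm M a ^ 2 := by ring
      _ < rm M a * (M * (M + √(M ^ 2 - a ^ 2))) := mul_lt_mul_of_pos_left e3 h0
      _ = M * a ^ 2 := by linear_combination (-M) * e1
  have c3 : ContinuousAt (fun ρ : ℝ => (rm M a + ρ) ^ 3) 0 := by fun_prop
  obtain ⟨ε, hε, H⟩ := Metric.eventually_nhds_iff.1
    (c3.eventually (gt_mem_nhds (by simpa using h3)))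
  refine ⟨min ε √(M ^ 2 - a ^ 2), lt_min hε hq, fun ρ hρ σ b HP => ?_⟩
  have h1 := lt_min_iff.1 hρ.2
  obtain ⟨T, χ, W⟩ := wit_at A0 M0 (r := rm M a + ρ) (by linarith [hρ.1])
    (P354IK.del_neg hM (by linarith [hρ.1]) (by rw [rm, rp]; linarith [h1.2]))
    (H (by rw [Real.dist_eq, sub_zero, abs_of_pos hρ.1]; exact h1.1)) σ b HP
  refine ⟨KK b, T, χ, (isCompact_closedBall 0 3).inter_right
    (isClosed_le continuous_const (by fun_prop)), fun z hz i => ?_, fun z hz => ?_, W⟩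
  · exact ((abs_co_le i z).trans (mem_closedBall_zero_iff.1 hz.1)).trans_lt Real.pi_gt_three
  · exact lt_of_lt_of_le (by norm_num) hz.2

end Vale.Agent.P354KT
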