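import Vale.Agent.P354KT.Rad

/-!
The Kerr slice as an axially symmetric metric.
-/

open scoped ContDiff
open Set Filter Topology

noncomputable section

namespace Vale.Agent.P354KT

open Vale.Agent.P354H (X3 e pd)
open Vale.Agent.P354K
open Vale.Agent.P354R (hK kK kerr Del Sig ht alp rnd rot omm)

/-- The conformal factor over 4, the square of the sine of the polar angle, and Sigma. -/
def mm (z : X3) : ℝ := ((1 + ss z) * (1 + ss z))⁻¹
def sg (z : X3) : ℝ := 4 * ss z * mm z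
def Sx (a r x : ℝ) : ℝ := r ^ 2 + a ^ 2 * (1 - x)

theorem ss_nn (z : X3) : 0 ≤ ss z := by unfold ss; positivity
theorem q_pos (z : X3) : 0 < 1 + ss z := by linarith [ss_nn z]
theorem mm_pos (z : X3) : 0 < mm z := inv_pos.2 (mul_pos (q_pos z) (q_pos z))

theorem sg_le (z : X3) : sg z ≤ 1 := by
  have := q_pos z
  rw [sg, mm, ← div_eq_mul_inv, div_le_one (by positivity)]
  nlinarith [sq_nonneg (1 - ss z)]

theorem sg_nn (z : X3) : 0 ≤ sg z := mul_nonneg (by linarith [ss_nn z]) (mm_pos z).le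

theorem Sx_pos (a : ℝ) {r x : ℝ} (h : 0 < r) (hx : x ≤ 1) : 0 < Sx a r x := by
  have : 0 ≤ a ^ 2 * (1 - x) := mul_nonneg (sq_nonneg a) (by linarith)
  unfold Sx
  positivity

theorem ht_sq (σ : Bool) (z : X3) : ht σ z.2 ^ 2 = 1 - sg z := by
  have h := (q_pos z).ne'
  have h' : 1 + z.2.1 ^ 2 + z.2.2 ^ 2 = 1 + ss z := by rw [ss]; ring
  have h'' : 1 - z.2.1 ^ 2 - z.2.2 ^ 2 = 1 - ss z := by rw [ss]; ring
  rw [ht, sg, mm, h', h'']
  cases σ <;> simp only [cond] <;> field_simp <;> ring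

theorem sig_eq (a r : ℝ) (σ : Bool) (z : X3) : Sig a r (ht σ z.2) = Sx a r (sg z) := by
  rw [Sig, ht_sq, Sx]

/-- The coefficients of the metric of the slice. -/
def c0 (M a r : ℝ) (z : X3) : ℝ :=
  -(Del M a r * (Sx a r (sg z))⁻¹) * ((1 - a * omm M a * sg z) * (1 - a * omm M a * sg z)) +
    Sx a r (sg z) * (omm M a ^ 2 * sg z) +
    (a ^ 2 * (r ^ 2 + a ^ 2 + Sx a r (sg z)) * (omm M a ^ 2 * (sg z * sg z)) -
      2 * a * (r ^ 2 + a ^ 2) * omm M a * sg z + a ^ 2 * sg z) * (Sx a r (sg z))⁻¹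
def c1 (M a r : ℝ) (z : X3) : ℝ :=
  4 * mm z * (a * Del M a r * (1 - a * omm M a * sg z) * (Sx a r (sg z))⁻¹ +
    Sx a r (sg z) * omm M a +
    (a ^ 2 * (r ^ 2 + a ^ 2 + Sx a r (sg z)) * (omm M a * sg z) - a * (r ^ 2 + a ^ 2)) *
      (Sx a r (sg z))⁻¹)
def c2 (a r : ℝ) (z : X3) : ℝ := 4 * mm z * Sx a r (sg z)
def c3 (M a r : ℝ) (z : X3) : ℝ :=
  16 * a ^ 2 * (mm z * mm z) * (1 + 2 * M * r * (Sx a r (sg z))⁻¹)

theorem hK_eq (M a : ℝ) {r : ℝ} (h : 0 < r) (σ : Bool) (z : X3) (i j : Fin 3) :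
    hK M a r σ z (e i) (e j) = hA (c0 M a r) (c1 M a r) (c2 a r) (c3 M a r) z i j := by
  have hS := (Sx_pos a h (sg_le z)).ne'
  have hq := (q_pos z).ne'
  have h' : 1 + z.2.1 ^ 2 + z.2.2 ^ 2 = 1 + ss z := by rw [ss]; ring
  have hm : ∀ x : ℝ, x / (1 + ss z) ^ 2 = x * mm z := fun x => by
    rw [mm, div_eq_mul_inv, sq]
  have hs : sg z = 4 * (z.2.1 ^ 2 + z.2.2 ^ 2) * mm z := rfl
  simp only [hK, kerr, sig_eq, ht_sq, alp, rnd, rot, h', hm, hA, c0, c1, c2, c3]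
  generalize Sx a r (sg z) = S at hS
  rw [hs]
  fin_cases i <;> fin_cases j <;> simp [e, Del] <;> field_simp <;> ring

theorem hS_eq (M a : ℝ) {r : ℝ} (h : 0 < r) (σ : Bool) :
    hS M a r σ = hA (c0 M a r) (c1 M a r) (c2 a r) (c3 M a r) := by
  funext z
  ext i j
  exact hK_eq M a h σ z i j

/-- The derivatives of c2 and c3 with respect to r. -/
def d2 (r : ℝ) (z : X3) : ℝ := 8 * mm z * r
def d3 (M a r : ℝ) (z : X3) : ℝ :=
  32 * a ^ 2 * (mm z * mm z) * M * (Sx a r (sg z) - 2 * r ^ 2) / Sx a r (sg z) ^ 2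

theorem der_Sx (a r x : ℝ) : HasDerivAt (fun s => Sx a s x) (2 * r) r := by
  have := (hasDerivAt_pow 2 r).add_const (a ^ 2 * (1 - x))
  simpa [Sx] using this

theorem der2 (a r : ℝ) (z : X3) : HasDerivAt (fun s => c2 a s z) (d2 r z) r :=
  ((der_Sx a r (sg z)).const_mul (4 * mm z)).congr_deriv (by rw [d2]; ring)

theorem der3 (M a : ℝ) {r : ℝ} (h : 0 < r) (z : X3) :
    HasDerivAt (fun s => c3 M a s z) (d3 M a r z) r := by
  have hS := (Sx_pos a h (sg_le z)).ne'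
  have := (((((hasDerivAt_id' r).const_mul (2 * M)).fun_mul
    ((der_Sx a r (sg z)).fun_inv hS)).const_add 1).const_mul (16 * a ^ 2 * (mm z * mm z)))
  refine this.congr_deriv ?_
  rw [d3]
  field_simp
  ring

/-- The lapse factor. -/
def nn (M a r : ℝ) (z : X3) : ℝ := √(-(Del M a r / Sx a r (sg z)))

theorem kS_der (M a : ℝ) {r : ℝ} (h : 0 < r) (σ : Bool) (z : X3) (i j : Fin 3) {c : ℝ}
    (hc : HasDerivAt (fun s => hA (c0 M a s) (c1 M a s) (c2 a s) (c3 M a s) z i j) c r) :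
    kS M a r σ z i j = -(nn M a r z / 2) * c := by
  have ev : (fun s => hK M a s σ z (e i) (e j)) =ᶠ[𝓝 r] fun s =>
      hA (c0 M a s) (c1 M a s) (c2 a s) (c3 M a s) z i j := by
    filter_upwards [Ioi_mem_nhds h] with s hs
    exact hK_eq M a hs σ z i j
  rw [kS, Matrix.of_apply, kK, ev.deriv_eq, hc.deriv, sig_eq, nn]

/-- The second fundamental form on the tensor TA. -/
theorem TK (M a : ℝ) {r : ℝ} (h : 0 < r) (σ : Bool) (F A B : X3 → ℝ) (z : X3) :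
    ∑ i, ∑ j, TA F A B z i j * kS M a r σ z i j = -(nn M a r z / 2) * F z *
      (A z * (ss z * d2 r z + ss z ^ 2 * d3 M a r z) + B z * (ss z * d2 r z)) := by
  have k11 := kS_der M a h σ z 1 1 ((der2 a r z).fun_add ((der3 M a h z).mul_const (z.2.2 * z.2.2)))
  have k12 := kS_der M a h σ z 1 2 ((der3 M a h z).mul_const (z.2.1 * z.2.2)).fun_neg
  have k21 := kS_der M a h σ z 2 1 ((der3 M a h z).mul_const (z.2.1 * z.2.2)).fun_neg
  have k22 := kS_der M a h σ z 2 2 ((der2 a r z).fun_add ((der3 M a h z).mul_const (z.2.1 * z.2.1)))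
  simp only [Fin.sum_univ_three, k11, k12, k21, k22, TA, Matrix.of_apply, Matrix.cons_val',
      Matrix.cons_val_zero, Matrix.cons_val_one, Matrix.cons_val_two, Matrix.cons_val_fin_one,
      Matrix.head_cons, Matrix.tail_cons, Matrix.head_fin_const, Matrix.empty_val', ss]
  ring

/-! ### Gradients -/

/-- The radial derivatives of mm and sg. -/
def mm' (z : X3) : ℝ := -(4 * (1 + ss z)) * (mm z * mm z)
def sg' (z : X3) : ℝ := 8 * mm z + 4 * ss z * mm' z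

theorem rd_mm : Rd mm mm' :=
  ((((Rd.const 1).add rd_ss).mul ((Rd.const 1).add rd_ss)).inv
    fun z => (mul_pos (q_pos z) (q_pos z)).ne').cg (fun _ => rfl) fun z => by
      simp only [mm', mm]; ring

theorem rd_sg : Rd sg sg' :=
  (((Rd.const 4).mul rd_ss).mul rd_mm).cg (fun _ => rfl) fun z => by simp only [sg']; ring

theorem rd_Sx (a r : ℝ) : Rd (fun z => Sx a r (sg z)) fun z => -(a ^ 2 * sg' z) :=
  ((Rd.const (r ^ 2)).add ((Rd.const (a ^ 2)).mul ((Rd.const 1).sub rd_sg))).cg (fun _ => rfl)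
    fun z => by ring

theorem rd_Si (a : ℝ) {r : ℝ} (h : 0 < r) : Rd (fun z => (Sx a r (sg z))⁻¹) fun z =>
    a ^ 2 * sg' z * ((Sx a r (sg z))⁻¹ * (Sx a r (sg z))⁻¹) :=
  ((rd_Sx a r).inv fun z => (Sx_pos a h (sg_le z)).ne').cg (fun _ => rfl) fun z => by ring

/-- Radial functions. -/
def Ra (u : X3 → ℝ) : Prop := ∃ u', Rd u u'

variable {u v : X3 → ℝ}

theorem Ra.add (h : Ra u) (h' : Ra v) : Ra fun z => u z + v z :=
  let ⟨_, h⟩ := h; let ⟨_, h'⟩ := h'; ⟨_, h.add h'⟩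
theorem Ra.sub (h : Ra u) (h' : Ra v) : Ra fun z => u z - v z :=
  let ⟨_, h⟩ := h; let ⟨_, h'⟩ := h'; ⟨_, h.sub h'⟩
theorem Ra.mul (h : Ra u) (h' : Ra v) : Ra fun z => u z * v z :=
  let ⟨_, h⟩ := h; let ⟨_, h'⟩ := h'; ⟨_, h.mul h'⟩
theorem Ra.neg (h : Ra u) : Ra fun z => -u z := let ⟨_, h⟩ := h; ⟨_, h.neg⟩
theorem Ra.const (c : ℝ) : Ra fun _ => c := ⟨_, Rd.const c⟩
theorem Ra.inv (h : Ra u) (h0 : ∀ z, u z ≠ 0) : Ra fun z => (u z)⁻¹ :=
  let ⟨_, h⟩ := h; ⟨_, h.inv h0⟩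
theorem Ra.comp {F : ℝ → ℝ} (hs : ContDiff ℝ ∞ F) (h : Ra u) : Ra fun z => F (u z) :=
  let ⟨_, h⟩ := h
  ⟨_, h.comp hs fun x => (hs.differentiable (by simp) x).hasDerivAt⟩
theorem Ra.sm (h : Ra u) : Sm u := let ⟨_, h⟩ := h; Gr.sm h

theorem ra0 (M a : ℝ) {r : ℝ} (h : 0 < r) : Ra (c0 M a r) := by
  have s : Ra sg := ⟨_, rd_sg⟩
  have S : Ra _ := ⟨_, rd_Sx a r⟩
  have I : Ra _ := ⟨_, rd_Si a h⟩
  have p := (Ra.const 1).sub ((Ra.const (a * omm M a)).mul s)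
  exact (((((Ra.const _).mul I).neg.mul (p.mul p)).add (S.mul ((Ra.const _).mul s))).add
    ((((((Ra.const _).mul ((Ra.const _).add S)).mul ((Ra.const _).mul (s.mul s))).sub
      ((Ra.const _).mul s)).add ((Ra.const _).mul s)).mul I))

theorem ra1 (M a : ℝ) {r : ℝ} (h : 0 < r) : Ra (c1 M a r) := by
  have s : Ra sg := ⟨_, rd_sg⟩
  have m : Ra mm := ⟨_, rd_mm⟩
  have S : Ra _ := ⟨_, rd_Sx a r⟩
  have I : Ra _ := ⟨_, rd_Si a h⟩
  have p := (Ra.const 1).sub ((Ra.const (a * omm M a)).mul s)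
  exact ((Ra.const _).mul m).mul (((((Ra.const _).mul p).mul I).add (S.mul (Ra.const _))).add
    (((((Ra.const _).mul ((Ra.const _).add S)).mul ((Ra.const _).mul s)).sub (Ra.const _)).mul I))

theorem rd2 (a r : ℝ) : Rd (c2 a r) fun z =>
    4 * (mm' z * Sx a r (sg z) - mm z * (a ^ 2 * sg' z)) :=
  (((Rd.const 4).mul rd_mm).mul (rd_Sx a r)).cg (fun _ => rfl) fun z => by ring

theorem rd3 (M a : ℝ) {r : ℝ} (h : 0 < r) : Rd (c3 M a r) fun z =>
    16 * a ^ 2 * (2 * mm z * mm' z * (1 + 2 * M * r * (Sx a r (sg z))⁻¹) + mm z * mm z *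
      (2 * M * r * (a ^ 2 * sg' z * ((Sx a r (sg z))⁻¹ * (Sx a r (sg z))⁻¹)))) :=
  (((Rd.const (16 * a ^ 2)).mul (rd_mm.mul rd_mm)).mul
    ((Rd.const 1).add ((Rd.const (2 * M * r)).mul (rd_Si a h)))).cg (fun _ => rfl) fun z => by ring

end Vale.Agent.P354KT
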