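import Vale.Agent.P354K.Top
import Vale.Agent.P354K.Calc

/-!
Axially symmetric metrics in a stereographic chart and divergence free tensors for them.
-/

open scoped ContDiff
open Set Filter Topology

noncomputable section

namespace Vale.Agent.P354KT

open Vale.Agent.P354H (X3 e pd)
open Vale.Agent.P354K

/-- The radial field of the plane. -/
def N (z : X3) : Fin 3 → ℝ := ![0, z.2.1, z.2.2]

/-- u is smooth with gradient g. -/
structure Gr (u : X3 → ℝ) (g : X3 → Fin 3 → ℝ) : Prop where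
  sm : Sm u
  eq : ∀ j z, pd j u z = g z j

variable {u v : X3 → ℝ} {g k : X3 → Fin 3 → ℝ}

theorem Gr.add (h : Gr u g) (h' : Gr v k) : Gr (fun z => u z + v z) fun z j => g z j + k z j :=
  ⟨h.sm.add h'.sm, fun j z => by rw [pd_add' j h.sm h'.sm]; simp only [h.eq, h'.eq]⟩

theorem Gr.sub (h : Gr u g) (h' : Gr v k) : Gr (fun z => u z - v z) fun z j => g z j - k z j :=
  ⟨h.sm.sub h'.sm, fun j z => by rw [pd_sub' j h.sm h'.sm]; simp only [h.eq, h'.eq]⟩

theorem Gr.mul (h : Gr u g) (h' : Gr v k) :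
    Gr (fun z => u z * v z) fun z j => g z j * v z + u z * k z j :=
  ⟨h.sm.mul h'.sm, fun j z => by rw [pd_mul j h.sm h'.sm]; simp only [h.eq, h'.eq]⟩

theorem Gr.neg (h : Gr u g) : Gr (fun z => -u z) fun z j => -g z j :=
  ⟨h.sm.neg, fun j z => by rw [pd_neg' j u]; simp only [h.eq]⟩

theorem Gr.const (c : ℝ) : Gr (fun _ => c) fun _ _ => 0 :=
  ⟨contDiff_const, fun j z => by rw [pd_const]⟩

theorem Gr.inv (h : Gr u g) (h0 : ∀ z, u z ≠ 0) :
    Gr (fun z => (u z)⁻¹) fun z j => -g z j * ((u z)⁻¹ * (u z)⁻¹) :=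
  ⟨h.sm.inv h0, fun j z => by rw [pd_inv j h.sm h0]; simp only [h.eq]⟩

theorem Gr.comp {F F' : ℝ → ℝ} (hs : ContDiff ℝ ∞ F) (hF : ∀ x, HasDerivAt F (F' x) x)
    (h : Gr u g) : Gr (fun z => F (u z)) fun z j => F' (u z) * g z j :=
  ⟨hs.comp h.sm, fun j z => by rw [pd_comp j hF h.sm]; simp only [h.eq]⟩

theorem Gr.cg {u' : X3 → ℝ} (h : Gr u g) (h1 : ∀ z, u' z = u z) (h2 : ∀ z j, k z j = g z j) :
    Gr u' k := by
  obtain rfl : u' = u := funext h1
  exact ⟨h.sm, fun j z => (h.eq j z).trans (h2 z j).symm⟩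

theorem gr_co (i : Fin 3) : Gr (co i) fun _ j => if i = j then 1 else 0 :=
  ⟨co_sm i, fun j z => by rw [pd_co]⟩

theorem gr_x : Gr (fun z => z.1) fun _ => ![1, 0, 0] :=
  (gr_co 0).cg (fun _ => rfl) fun _ j => by fin_cases j <;> rfl
theorem gr_y1 : Gr (fun z => z.2.1) fun _ => ![0, 1, 0] :=
  (gr_co 1).cg (fun _ => rfl) fun _ j => by fin_cases j <;> rfl
theorem gr_y2 : Gr (fun z => z.2.2) fun _ => ![0, 0, 1] :=
  (gr_co 2).cg (fun _ => rfl) fun _ j => by fin_cases j <;> rfl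

/-- The gradient of u is u' times the radial field. -/
def Rd (u u' : X3 → ℝ) : Prop := Gr u fun z j => u' z * N z j

variable {u' v' : X3 → ℝ}

theorem Rd.add (h : Rd u u') (h' : Rd v v') : Rd (fun z => u z + v z) fun z => u' z + v' z :=
  (Gr.add h h').cg (fun _ => rfl) fun _ _ => by ring
theorem Rd.sub (h : Rd u u') (h' : Rd v v') : Rd (fun z => u z - v z) fun z => u' z - v' z :=
  (Gr.sub h h').cg (fun _ => rfl) fun _ _ => by ring
theorem Rd.mul (h : Rd u u') (h' : Rd v v') :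
    Rd (fun z => u z * v z) fun z => u' z * v z + u z * v' z :=
  (Gr.mul h h').cg (fun _ => rfl) fun _ _ => by ring
theorem Rd.neg (h : Rd u u') : Rd (fun z => -u z) fun z => -u' z :=
  (Gr.neg h).cg (fun _ => rfl) fun _ _ => by ring
theorem Rd.const (c : ℝ) : Rd (fun _ => c) fun _ => 0 :=
  (Gr.const c).cg (fun _ => rfl) fun _ _ => by ring
theorem Rd.inv (h : Rd u u') (h0 : ∀ z, u z ≠ 0) :
    Rd (fun z => (u z)⁻¹) fun z => -u' z * ((u z)⁻¹ * (u z)⁻¹) :=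
  (Gr.inv h h0).cg (fun _ => rfl) fun _ _ => by ring
theorem Rd.comp {F F' : ℝ → ℝ} (hs : ContDiff ℝ ∞ F) (hF : ∀ x, HasDerivAt F (F' x) x)
    (h : Rd u u') : Rd (fun z => F (u z)) fun z => F' (u z) * u' z :=
  (Gr.comp hs hF h).cg (fun _ => rfl) fun _ _ => by ring
theorem Rd.cg {w w' : X3 → ℝ} (h : Rd u u') (h1 : ∀ z, w z = u z) (h2 : ∀ z, w' z = u' z) :
    Rd w w' := Gr.cg h h1 fun z j => by rw [h2]

/-- The square of the radius. -/
def ss (z : X3) : ℝ := z.2.1 ^ 2 + z.2.2 ^ 2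

theorem rd_ss : Rd ss fun _ => 2 :=
  ((gr_y1.mul gr_y1).add (gr_y2.mul gr_y2)).cg (fun z => by simp only [ss]; ring)
    fun z j => by fin_cases j <;> simp [N] <;> ring

/-- An axially symmetric metric which does not depend on x. -/
def hA (a0 a1 a2 a3 : X3 → ℝ) (z : X3) : M3 :=
  !![a0 z, -(a1 z * z.2.2), a1 z * z.2.1;
    -(a1 z * z.2.2), a2 z + a3 z * (z.2.2 * z.2.2), -(a3 z * (z.2.1 * z.2.2));
    a1 z * z.2.1, -(a3 z * (z.2.1 * z.2.2)), a2 z + a3 z * (z.2.1 * z.2.1)]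

/-- The tensor F (A rot rot + B rad rad). -/
def TA (F A B : X3 → ℝ) (z : X3) : M3 :=
  !![0, 0, 0;
    0, F z * (A z * (z.2.2 * z.2.2) + B z * (z.2.1 * z.2.1)), F z * ((B z - A z) * (z.2.1 * z.2.2));
    0, F z * ((B z - A z) * (z.2.1 * z.2.2)), F z * (A z * (z.2.1 * z.2.1) + B z * (z.2.2 * z.2.2))]

theorem TA_sm {F A B : X3 → ℝ} (hF : Sm F) (hA : Sm A) (hB : Sm B) (a b : Fin 3) :
    Sm fun z => TA F A B z a b := by
  have h1 := gr_y1.sm
  have h2 := gr_y2.sm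
  fin_cases a <;> fin_cases b
  all_goals first
    | exact contDiff_const (c := (0 : ℝ))
    | exact hF.mul ((hA.mul (h2.mul h2)).add (hB.mul (h1.mul h1)))
    | exact hF.mul ((hB.sub hA).mul (h1.mul h2))
    | exact hF.mul ((hA.mul (h1.mul h1)).add (hB.mul (h2.mul h2)))

theorem TA_symm (F A B : X3 → ℝ) (z : X3) (a b : Fin 3) : TA F A B z a b = TA F A B z b a := by
  fin_cases a <;> fin_cases b <;> rfl

/-- The divergence of TA for the metric hA. -/
theorem div_zero {a0 a1 a2 a3 a0' a1' a2' a3' F F' A A' B B' : X3 → ℝ} (π : X3 → M3)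
    (h0 : Rd a0 a0') (h1 : Rd a1 a1') (h2 : Rd a2 a2') (h3 : Rd a3 a3')
    (hF : Gr F fun z => ![F' z, 0, 0]) (hA' : Rd A A') (hB : Rd B B') (z : X3)
    (rel : A z * (2 * a2 z + ss z * a2' z + 4 * ss z * a3 z + ss z ^ 2 * a3' z) =
      2 * ss z * a2 z * B' z + (ss z * a2' z + 6 * a2 z) * B z) (a : Fin 3) :
    PM a (at' (jet (hA a0 a1 a2 a3) π) z) (at' (jet 0 (TA F A B)) z) = 0 := by
  have e00 := h0.eq
  have e01 := (Gr.mul h1 gr_y2).neg.eq
  have e02 := (Gr.mul h1 gr_y1).eq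
  have e11 := (Gr.add h2 (Gr.mul h3 (gr_y2.mul gr_y2))).eq
  have e12 := (Gr.mul h3 (gr_y1.mul gr_y2)).neg.eq
  have e22 := (Gr.add h2 (Gr.mul h3 (gr_y1.mul gr_y1))).eq
  have t0 := (Gr.const 0).eq
  have t11 := (hF.mul ((Gr.mul hA' (gr_y2.mul gr_y2)).add (Gr.mul hB (gr_y1.mul gr_y1)))).eq
  have t12 := (hF.mul ((Gr.sub hB hA').mul (gr_y1.mul gr_y2))).eq
  have t22 := (hF.mul ((Gr.mul hA' (gr_y1.mul gr_y1)).add (Gr.mul hB (gr_y2.mul gr_y2)))).eq
  simp only [ss] at rel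
  fin_cases a
  all_goals
    simp only [PM, at', jet, Fin.sum_univ_three, hA, TA, Matrix.of_apply, Matrix.cons_val',
      Matrix.cons_val_zero, Matrix.cons_val_one, Matrix.cons_val_two, Matrix.cons_val_fin_one,
      Matrix.head_cons, Matrix.tail_cons, Matrix.head_fin_const, Matrix.empty_val',
      Fin.zero_eta, Fin.mk_one, Fin.reduceFinMk, Fin.isValue,
      e00, e01, e02, e11, e12, e22, t0, t11, t12, t22, N]
  · ring
  · linear_combination (-(F z * z.2.1) / 2) * rel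
  · linear_combination (-(F z * z.2.2) / 2) * rel

end Vale.Agent.P354KT
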